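import Vale.Agent.P022D.V.Defs2
import Vale.Agent.P022E.V.Defs

namespace Vale.Agent.P022E.V
export Vale.Agent.P022D.V (
  Kq Sp dl Eg X2 zR L2 IsS TC Wh ifl W2 ep S2 pw Wb W1 Wa zA dep Iv Bq wB wA Ts pr Vb Fil2
  Rel rho V2 Uq T2)
end Vale.Agent.P022E.V

namespace Vale.Agent.P022E.V.Sp
export Vale.Agent.P022D.V.Sp (
  mk eq cop dvd odd prime)
end Vale.Agent.P022E.V.Sp

namespace Vale.Agent.P022E.V.Rel
export Vale.Agent.P022D.V.Rel (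
  c2 c0 mk c1 c3)
end Vale.Agent.P022E.V.Rel
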