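import Vale.Agent.P022D.V.Spec
import Vale.Agent.P022E.V.Defs3
import Vale.Agent.P022E.G.Defs

namespace Vale.Agent.P022E.V.Unif
export Vale.Agent.P022D.V.Unif (
  dvd mk ne nu)
end Vale.Agent.P022E.V.Unif

namespace Vale.Agent.P022E.V
export Vale.Agent.P022D.V (
  STURM TR1 TR2 Ops IRR IH Lev UNR NRM SER PZ DIV HK IH0 Cg PAR RAT CLA ROOT wd EMB GEN HKV
  CLAD WL DESC DESCV CYC VS3 Unif VS2 WV VS1 LIFT FLAT)
end Vale.Agent.P022E.V

namespace Vale.Agent.P022E.V.Lev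
export Vale.Agent.P022D.V.Lev (
  cop hu odd dB hb1 lev hb2 mk copB eq Bd)
end Vale.Agent.P022E.V.Lev

namespace Vale.Agent.P022E.V.PZ
export Vale.Agent.P022D.V.PZ (
  pow unit mk)
end Vale.Agent.P022E.V.PZ
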