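import Vale.Agent.P022D.V.Spec2
import Vale.Agent.P022E.V.Spec

namespace Vale.Agent.P022E.V
export Vale.Agent.P022D.V (
  Dq Nu WF2 IsC WF1 TN GRP)
end Vale.Agent.P022E.V
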